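import Vale.Agent.P252D.Sections
import Vale.Agent.P252B.Main

/-!
Assembly: the mass bound and the integrated certificate force a constant determinant.
-/

open Set MeasureTheory Filter Topology

namespace Vale.Agent.P252D

open Vale.Agent.P252 (hessian)
open Vale.Agent.P252B (V pd Admissible IsAM diffAt_of_mem hessian_congr fderiv_apply_sum)

namespace Sol

variable (P : Sol)

lemma integrableOn_sec {f : V 3 → ℝ} (hf : ContinuousOn f P.Ω) (h : ℝ) :
    IntegrableOn f (P.sec h) volume :=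
  ((hf.mono (P.csec_subset h)).integrableOn_compact (P.isCompact_csec h)).mono_set
    (P.sec_subset_csec h)

lemma continuousOn_dt_rpow (σ : ℝ) : ContinuousOn (fun x => dt P.u x ^ σ) P.Ω :=
  P.contDiffOn_dt.continuousOn.rpow_const fun _ hx => Or.inl (P.dt_pos hx).ne'

/-- The integral of `cut ^ M * det ^ σ` from the mass bound. -/
lemma mass_rpow {M : ℕ} {σ N h : ℝ} (hσ0 : 0 ≤ σ) (hσ1 : σ ≤ 1) (hh : 0 < h)
    (hN : (∫ x in P.sec h, P.cut h x ^ M * dt P.u x) ≤ N * h ^ (M + 3) /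
      (volume (P.sec h)).toReal) :
    (∫ x in P.sec h, P.cut h x ^ M * dt P.u x ^ σ) ≤
      (|N| + 1) * h ^ M * h ^ (3 * σ) * (volume (P.sec h)).toReal ^ (1 - 2 * σ) := by
  set S := (volume (P.sec h)).toReal with hS
  have hS0 : 0 < S := P.volume_sec_pos hh
  set a := h ^ (3:ℝ) * S ^ (-2:ℝ) with ha
  have ha0 : 0 < a := by positivity
  have hm1 : ∀ x ∈ P.sec h, P.cut h x ^ M * dt P.u x ^ σ ≤
      a ^ (σ - 1) * (P.cut h x ^ M * dt P.u x) + a ^ σ * P.cut h x ^ M := by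
    intro x hx
    have ht := P.dt_pos (P.sec_subset h hx)
    have hk : 0 ≤ P.cut h x ^ M := pow_nonneg (P.cut_nonneg hx) M
    have e : (dt P.u x / a) ^ σ ≤ dt P.u x / a + 1 := by
      rcases le_or_gt (dt P.u x / a) 1 with hc | hc
      · linarith [Real.rpow_le_one (by positivity) hc hσ0, div_pos ht ha0]
      · have := Real.rpow_le_rpow_of_exponent_le hc.le hσ1
        rw [Real.rpow_one] at this
        linarith
    have e2 : dt P.u x ^ σ ≤ a ^ (σ - 1) * dt P.u x + a ^ σ := by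
      rw [Real.div_rpow ht.le ha0.le, div_le_iff₀ (by positivity)] at e
      refine e.trans (le_of_eq ?_)
      rw [Real.rpow_sub ha0, Real.rpow_one]
      field_simp
    calc _ ≤ P.cut h x ^ M * (a ^ (σ - 1) * dt P.u x + a ^ σ) :=
          mul_le_mul_of_nonneg_left e2 hk
      _ = _ := by ring
  have hc := P.continuousOn_cut h
  have i1 : IntegrableOn (fun x => P.cut h x ^ M * dt P.u x) (P.sec h) volume :=
    P.integrableOn_sec ((hc.pow M).mul P.contDiffOn_dt.continuousOn) h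
  have i2 : IntegrableOn (fun x => P.cut h x ^ M) (P.sec h) volume :=
    P.integrableOn_sec (hc.pow M) h
  have h2 : (∫ x in P.sec h, P.cut h x ^ M) ≤ h ^ M * S := by
    refine (setIntegral_mono_on i2 (integrableOn_const (C := h ^ M) (P.volume_sec_lt_top h).ne)
      (P.measurableSet_sec h) fun x hx => pow_le_pow_left₀ (P.cut_nonneg hx) (P.cut_le hx) M).trans
      (le_of_eq ?_)
    rw [setIntegral_const, smul_eq_mul, measureReal_def, ← hS]
    ring
  refine (setIntegral_mono_on (P.integrableOn_sec ((hc.pow M).mul (P.continuousOn_dt_rpow σ)) h)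
    ((i1.const_mul _).add (i2.const_mul _)) (P.measurableSet_sec h) hm1).trans ?_
  simp only [Pi.add_apply]
  rw [integral_add (i1.const_mul _) (i2.const_mul _), integral_const_mul, integral_const_mul]
  have h1 : (∫ x in P.sec h, P.cut h x ^ M * dt P.u x) ≤ |N| * h ^ (M + 3) / S :=
    hN.trans (by gcongr; exact le_abs_self N)
  refine (add_le_add (mul_le_mul_of_nonneg_left h1 (by positivity))
    (mul_le_mul_of_nonneg_left h2 (by positivity))).trans (le_of_eq ?_)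
  have hs1 : S⁻¹ = S ^ (-1:ℝ) := (Real.rpow_neg_one S).symm
  have hs2 : h ^ (M + 3) = h ^ M * h ^ (3:ℝ) := by rw [pow_add]; norm_cast
  have b1 : a ^ (σ - 1) = h ^ (3 * σ - 3) * S ^ (2 - 2 * σ) := by
    rw [ha, Real.mul_rpow (by positivity) (by positivity), ← Real.rpow_mul hh.le,
      ← Real.rpow_mul hS0.le]
    ring_nf
  have b2 : a ^ σ = h ^ (3 * σ) * S ^ (-(2 * σ)) := by
    rw [ha, Real.mul_rpow (by positivity) (by positivity), ← Real.rpow_mul hh.le,
      ← Real.rpow_mul hS0.le]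
    ring_nf
  have c1 : h ^ (3 * σ - 3) * h ^ (3:ℝ) = h ^ (3 * σ) := by
    rw [← Real.rpow_add hh]; ring_nf
  have c2 : S ^ (2 - 2 * σ) * S ^ (-1:ℝ) = S ^ (1 - 2 * σ) := by
    rw [← Real.rpow_add hS0]; ring_nf
  have c3 : S ^ (-(2 * σ)) * S = S ^ (1 - 2 * σ) := by
    rw [← Real.rpow_add_one hS0.ne']; ring_nf
  rw [div_eq_mul_inv, hs1, hs2, b1, b2]
  calc _ = |N| * h ^ M * (h ^ (3 * σ - 3) * h ^ (3:ℝ)) * (S ^ (2 - 2 * σ) * S ^ (-1:ℝ))
        + h ^ M * h ^ (3 * σ) * (S ^ (-(2 * σ)) * S) := by ring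
    _ = _ := by rw [c1, c2, c3]; ring

/-- Decay of the certificate integral on a fixed section. -/
lemma integral_qX_eq_zero {M : ℕ} {σ : ℝ} (hσ : 1/2 ≤ σ) (hσ1 : σ < 1) (hM : MassSpec M)
    (hC : CertSpec M σ) {h₀ : ℝ} (hh₀ : 0 < h₀) :
    (∫ x in P.sec h₀, qX P.u x ^ 3 * dt P.u x ^ σ) = 0 := by
  obtain ⟨N₁, hN₁⟩ := hM
  obtain ⟨N₂, hN₂⟩ := hC
  set I := ∫ x in P.sec h₀, qX P.u x ^ 3 * dt P.u x ^ σ with hI
  have hI0 : 0 ≤ I := setIntegral_nonneg (P.measurableSet_sec h₀) fun x hx =>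
    mul_nonneg (pow_nonneg (P.qX_nonneg (P.sec_subset _ hx)) 3)
      (Real.rpow_nonneg (P.dt_pos (P.sec_subset _ hx)).le _)
  set S₀ := (volume (P.sec h₀)).toReal with hS₀
  set C := 2 ^ (M + 3) * |N₂| * (|N₁| + 1) * S₀ ^ (1 - 2 * σ) with hC'
  have hS00 : 0 < S₀ := P.volume_sec_pos hh₀
  have key : ∀ h : ℝ, 2 * h₀ ≤ h → I ≤ C * h ^ (-(3 * (1 - σ))) := by
    intro h hh
    have hh0 : 0 < h := by linarith
    have hint : ∀ s, IntegrableOn
        (fun x => P.cut h x ^ (M + 3) * qX P.u x ^ 3 * dt P.u x ^ σ) (P.sec s) volume := fun s =>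
      P.integrableOn_sec ((((P.continuousOn_cut h).pow _).mul (P.continuousOn_qX.pow 3)).mul
        (P.continuousOn_dt_rpow σ)) s
    have hsub : P.sec h₀ ⊆ P.sec h := P.sec_mono (by linarith)
    have a1 : (h / 2) ^ (M + 3) * I ≤
        ∫ x in P.sec h₀, P.cut h x ^ (M + 3) * qX P.u x ^ 3 * dt P.u x ^ σ := by
      rw [hI, ← integral_const_mul]
      refine setIntegral_mono_on ((P.integrableOn_sec ((P.continuousOn_qX.pow 3).mul
        (P.continuousOn_dt_rpow σ)) h₀).const_mul _) (hint h₀) (P.measurableSet_sec h₀) fun x hx => ?_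
      rw [mul_assoc (P.cut h x ^ (M + 3))]
      refine mul_le_mul_of_nonneg_right (pow_le_pow_left₀ (by linarith) ?_ _)
        (mul_nonneg (pow_nonneg (P.qX_nonneg (P.sec_subset _ hx)) 3)
          (Real.rpow_nonneg (P.dt_pos (P.sec_subset _ hx)).le _))
      have : P.u x < h₀ := hx.2
      simp only [Sol.cut]
      linarith
    have a2 : (∫ x in P.sec h₀, P.cut h x ^ (M + 3) * qX P.u x ^ 3 * dt P.u x ^ σ) ≤
        ∫ x in P.sec h, P.cut h x ^ (M + 3) * qX P.u x ^ 3 * dt P.u x ^ σ := by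
      refine setIntegral_mono_set (hint h) ?_ (Eventually.of_forall fun x hx => hsub hx)
      filter_upwards [ae_restrict_mem (P.measurableSet_sec h)] with x hx
      exact mul_nonneg (mul_nonneg (pow_nonneg (P.cut_nonneg hx) _)
        (pow_nonneg (P.qX_nonneg (P.sec_subset _ hx)) 3))
        (Real.rpow_nonneg (P.dt_pos (P.sec_subset _ hx)).le _)
    have hpos : 0 ≤ ∫ x in P.sec h, P.cut h x ^ M * dt P.u x ^ σ :=
      setIntegral_nonneg (P.measurableSet_sec h) fun x hx =>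
        mul_nonneg (pow_nonneg (P.cut_nonneg hx) _)
          (Real.rpow_nonneg (P.dt_pos (P.sec_subset _ hx)).le _)
    have a3 : (∫ x in P.sec h, P.cut h x ^ M * dt P.u x ^ σ) ≤
        (|N₁| + 1) * h ^ M * h ^ (3 * σ) * S₀ ^ (1 - 2 * σ) :=
      (P.mass_rpow (by linarith) hσ1.le hh0 (hN₁ P h hh0)).trans
        (mul_le_mul_of_nonneg_left (Real.rpow_le_rpow_of_nonpos hS00
          (P.volume_sec_mono (by linarith)) (by linarith)) (by positivity))
    have a4 : (h / 2) ^ (M + 3) * I ≤ |N₂| * ((|N₁| + 1) * h ^ M * h ^ (3 * σ) * S₀ ^ (1 - 2 * σ)) :=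
      a1.trans (a2.trans ((hN₂ P h hh0).trans ((mul_le_mul_of_nonneg_right (le_abs_self N₂) hpos).trans
        (mul_le_mul_of_nonneg_left a3 (abs_nonneg N₂)))))
    rw [← le_div_iff₀' (by positivity)] at a4
    refine a4.trans (le_of_eq ?_)
    rw [hC', div_pow, pow_add h M 3, show h ^ (3:ℕ) = h ^ (3:ℝ) by norm_cast,
      show -(3 * (1 - σ)) = 3 * σ - 3 by ring, Real.rpow_sub hh0]
    field_simp
  have hlim : Tendsto (fun h : ℝ => C * h ^ (-(3 * (1 - σ)))) atTop (𝓝 0) := by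
    simpa using (tendsto_rpow_neg_atTop (by linarith : (0:ℝ) < 3 * (1 - σ))).const_mul C
  exact le_antisymm (ge_of_tendsto hlim (eventually_atTop.2 ⟨2 * h₀, key⟩)) hI0

/-- The determinant is constant. -/
theorem dt_const {M : ℕ} {σ : ℝ} (hσ : 1/2 ≤ σ) (hσ1 : σ < 1) (hM : MassSpec M)
    (hC : CertSpec M σ) {x : V 3} (hx : x ∈ P.Ω) : dt P.u x = dt P.u P.p₀ := by
  have hz : ∀ y ∈ P.Ω, fderiv ℝ (lg P.u) y = 0 := by
    intro y hy
    refine P.fderiv_lg_eq_zero hy ?_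
    have hh : 0 < P.u y + 1 := by linarith [P.nonneg hy]
    have h0 := P.integral_qX_eq_zero hσ hσ1 hM hC hh
    have hco : ContinuousOn (fun x => qX P.u x ^ 3 * dt P.u x ^ σ) (P.sec (P.u y + 1)) :=
      ((P.continuousOn_qX.pow 3).mul (P.continuousOn_dt_rpow σ)).mono (P.sec_subset _)
    have hint : IntegrableOn (fun x => qX P.u x ^ 3 * dt P.u x ^ σ) (P.sec (P.u y + 1)) volume :=
      P.integrableOn_sec ((P.continuousOn_qX.pow 3).mul (P.continuousOn_dt_rpow σ)) _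
    rw [setIntegral_eq_zero_iff_of_nonneg_ae ?_ hint] at h0
    swap
    · filter_upwards [ae_restrict_mem (P.measurableSet_sec _)] with z hz
      exact mul_nonneg (pow_nonneg (P.qX_nonneg (P.sec_subset _ hz)) 3)
        (Real.rpow_nonneg (P.dt_pos (P.sec_subset _ hz)).le _)
    have := Measure.eqOn_open_of_ae_eq h0 (P.isOpen_sec _) hco continuousOn_const
      (show y ∈ P.sec (P.u y + 1) from ⟨hy, by linarith⟩)
    rcases mul_eq_zero.1 this with h1 | h1
    · exact pow_eq_zero_iff (by norm_num) |>.1 h1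
    · exact absurd h1 (Real.rpow_pos_of_pos (P.dt_pos hy) _).ne'
  have he : lg P.u x = lg P.u P.p₀ :=
    P.isOpen.is_const_of_fderiv_eq_zero P.convex.isPreconnected
      (P.contDiffOn_lg.differentiableOn (by norm_num)) hz hx P.mem₀
  have : Real.log (dt P.u x) = Real.log (dt P.u P.p₀) := by simp only [lg] at he; linarith
  exact Real.log_injOn_pos (P.dt_pos hx) (P.dt_pos P.mem₀) this

end Sol

/-- Rigidity from the three modules, for a normalised solution. -/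
theorem Sol.rigid (P : Sol) {M : ℕ} {σ : ℝ} (hσ : 1/2 ≤ σ) (hσ1 : σ < 1) (hM : MassSpec M)
    (hC : CertSpec M σ) (hD : DetConstSpec) :
    P.Ω = univ ∧ ∃ (A : Fin 3 → Fin 3 → ℝ) (b : Fin 3 → ℝ) (c : ℝ),
      ∀ x, P.u x = (∑ i, ∑ j, A i j * x i * x j) + (∑ i, b i * x i) + c :=
  hD P (dt P.u P.p₀) fun _ hx => P.dt_const hσ hσ1 hM hC hx

/-- Rigidity from the three modules. -/
theorem rigidity {M : ℕ} {σ : ℝ} (hσ : 1/2 ≤ σ) (hσ1 : σ < 1) (hM : MassSpec M)
    (hC : CertSpec M σ) (hD : DetConstSpec) (Ω : Set (V 3)) (u : V 3 → ℝ)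
    (hne : Ω.Nonempty) (hu : Admissible Ω u) (ham : IsAM Ω u)
    (hcl : IsClosed {p : V 3 × ℝ | p.1 ∈ Ω ∧ p.2 = u p.1}) :
    Ω = univ ∧ ∃ (A : Fin 3 → Fin 3 → ℝ) (b : Fin 3 → ℝ) (c : ℝ),
      ∀ x, u x = (∑ i, ∑ j, A i j * x i * x j) + (∑ i, b i * x i) + c := by
  obtain ⟨x₀, hx₀⟩ := hne
  obtain ⟨hΩ, hc, hus, hpd⟩ := id hu
  set L := fderiv ℝ u x₀ with hL
  set u' := fun x => u x - (u x₀ + L (x - x₀)) with hu'
  have hlin : ContDiffOn ℝ (↑(⊤ : ℕ∞)) (fun x => u x₀ + L (x - x₀)) Ω :=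
    (contDiff_const.add (L.contDiff.comp (contDiff_id.sub contDiff_const))).contDiffOn
  have hd : ∀ y ∈ Ω, HasFDerivAt u' (fderiv ℝ u y - L) y := fun y hy => by
    have h2 : HasFDerivAt (fun x => u x₀ + L (x - x₀)) L y :=
      (L.hasFDerivAt.comp y ((hasFDerivAt_id y).sub_const x₀)).const_add (u x₀)
    exact (diffAt_of_mem hΩ hus hy).hasFDerivAt.sub h2
  have hH : ∀ y ∈ Ω, hessian u' y = hessian u y := fun y hy => by
    ext i j
    have e : fderiv ℝ u' =ᶠ[nhds y] fun z => fderiv ℝ u z - L :=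
      Filter.eventuallyEq_of_mem (hΩ.mem_nhds hy) fun z hz => (hd z hz).fderiv
    simp only [hessian, Matrix.of_apply, e.fderiv_eq, fderiv_sub_const]
  have ham' : IsAM Ω u' := by
    intro x hx
    refine Eq.trans ?_ (ham x hx)
    have e : (fun y => (hessian u' y).det ^ (-(((3 : ℕ) : ℝ) + 1) / (((3 : ℕ) : ℝ) + 2))) =ᶠ[nhds x]
        fun y => (hessian u y).det ^ (-(((3 : ℕ) : ℝ) + 1) / (((3 : ℕ) : ℝ) + 2)) :=
      Filter.eventuallyEq_of_mem (hΩ.mem_nhds hx) fun y hy => by simp only [hH y hy]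
    simp only [← neg_div]
    simp only [hH x hx, hessian_congr e]
  have hcl' : IsClosed {p : V 3 × ℝ | p.1 ∈ Ω ∧ p.2 = u' p.1} := by
    have e : {p : V 3 × ℝ | p.1 ∈ Ω ∧ p.2 = u' p.1} =
        (fun p : V 3 × ℝ => (p.1, p.2 + (u x₀ + L (p.1 - x₀)))) ⁻¹'
          {p : V 3 × ℝ | p.1 ∈ Ω ∧ p.2 = u p.1} := by
      ext p
      simp only [Set.mem_ofPred_eq, Set.mem_preimage, hu', eq_sub_iff_add_eq]
    rw [e]
    exact hcl.preimage (by fun_prop)
  obtain ⟨h1, A, b, c, h2⟩ := Sol.rigid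
    ⟨Ω, u', ⟨hΩ, hc, hus.sub hlin, fun x hx => (hH x hx).symm ▸ hpd x hx⟩, ham', hcl', x₀, hx₀,
      by simp [hu'], by rw [(hd x₀ hx₀).fderiv, sub_self]⟩ hσ hσ1 hM hC hD
  refine ⟨h1, A, fun i => b i + L (EuclideanSpace.single i 1), c + u x₀ - L x₀, fun x => ?_⟩
  have h3 : u x = u' x + (u x₀ + L (x - x₀)) := by simp [hu']
  have h4 : L x = ∑ i, x i * L (EuclideanSpace.single i 1) := by
    rw [hL, fderiv_apply_sum]
    rfl
  rw [h3]
  simp only [add_mul, Finset.sum_add_distrib, map_sub]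
  rw [show u' x = (∑ i, ∑ j, A i j * x i * x j) + (∑ i, b i * x i) + c from h2 x, h4]
  simp only [mul_comm (L _)]
  ring

end Vale.Agent.P252D
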