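import Vale.Agent.P252D.Sections
import Vale.Agent.P252E.Jet

/-!
From the pointwise certificate and the divergence identities to the integrated certificate.
-/

open Set MeasureTheory

namespace Vale.Agent.P252D

open Vale.Agent.P252B (V)
open Vale.Agent.P252E (Jet Fld udeg)

/-- What the calculus module delivers: on each section there is a jet at every point whose forms
integrate to zero against `cut ^ m * det ^ σ`. -/
def DivSpec (σ : ℝ) (m : ℕ) : Prop :=
  ∀ (P : Sol) (h : ℝ), 0 < h → ∃ J : V 3 → Jet,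
    (∀ x ∈ P.sec h, (J x).Valid ∧ (J x).X = qX P.u x ∧ (J x).T = (P.cut h x)⁻¹) ∧
    ∀ (F : Fld) (e : ℕ × ℕ × ℕ), udeg F e + 2 ≤ m →
      IntegrableOn (fun x => P.cut h x ^ m * dt P.u x ^ σ * (J x).Phi σ m F e) (P.sec h) volume ∧
      (∫ x in P.sec h, P.cut h x ^ m * dt P.u x ^ σ * (J x).Phi σ m F e) = 0

/-- The pointwise certificate. -/
def PointCert {ι : Type} [Fintype ι] (σ : ℝ) (m : ℕ) (F : ι → Fld) (e : ι → ℕ × ℕ × ℕ)
    (c : ι → ℝ) (ε N : ℝ) : Prop :=
  ∀ J : Jet, J.Valid → ε * J.X ^ 3 - N * J.T ^ 3 ≤ ∑ i, c i * J.Phi σ m (F i) (e i)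

/-- The integrated certificate. -/
theorem certSpec {ι : Type} [Fintype ι] {σ : ℝ} {M : ℕ} {F : ι → Fld} {e : ι → ℕ × ℕ × ℕ}
    {c : ι → ℝ} {ε N : ℝ} (hdeg : ∀ i, udeg (F i) (e i) + 2 ≤ M + 3) (hε : 0 < ε)
    (hP : PointCert σ (M + 3) F e c ε N) (hD : DivSpec σ (M + 3)) : CertSpec M σ := by
  refine ⟨N / ε, fun P h hh => ?_⟩
  obtain ⟨J, hJ, hI⟩ := hD P h hh
  set w := fun x => P.cut h x ^ (M + 3) * dt P.u x ^ σ with hw
  have hrp : ContinuousOn (fun x => dt P.u x ^ σ) P.Ω :=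
    P.contDiffOn_dt.continuousOn.rpow_const fun _ hx => Or.inl (P.dt_pos hx).ne'
  have int_on : ∀ {f : V 3 → ℝ}, ContinuousOn f P.Ω → IntegrableOn f (P.sec h) volume :=
    fun hf => ((hf.mono (P.csec_subset h)).integrableOn_compact (P.isCompact_csec h)).mono_set
      (P.sec_subset_csec h)
  have iX : IntegrableOn (fun x => P.cut h x ^ (M + 3) * qX P.u x ^ 3 * dt P.u x ^ σ) (P.sec h)
      volume :=
    int_on ((((P.continuousOn_cut h).pow _).mul (P.continuousOn_qX.pow 3)).mul hrp)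
  have iT : IntegrableOn (fun x => P.cut h x ^ M * dt P.u x ^ σ) (P.sec h) volume :=
    int_on (((P.continuousOn_cut h).pow M).mul hrp)
  have iS : IntegrableOn (fun x => ∑ i, c i * (w x * (J x).Phi σ (M + 3) (F i) (e i))) (P.sec h)
      volume :=
    integrable_finsetSum _ fun i _ => (hI _ _ (hdeg i)).1.const_mul _
  have key : (∫ x in P.sec h, (ε * (P.cut h x ^ (M + 3) * qX P.u x ^ 3 * dt P.u x ^ σ) -
      N * (P.cut h x ^ M * dt P.u x ^ σ))) ≤ 0 := by
    refine (setIntegral_mono_on ((iX.const_mul ε).sub (iT.const_mul N)) iS (P.measurableSet_sec h)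
      fun x hx => ?_).trans_eq ?_
    · obtain ⟨hv, hX, hT⟩ := hJ x hx
      have hc : 0 < P.cut h x := sub_pos.2 hx.2
      have hw0 : 0 ≤ w x := mul_nonneg (pow_nonneg hc.le _)
        (Real.rpow_nonneg (P.dt_pos (P.sec_subset h hx)).le _)
      have h1 := mul_le_mul_of_nonneg_left (hP (J x) hv) hw0
      rw [hX, hT, Finset.mul_sum] at h1
      refine le_trans (le_of_eq ?_) (h1.trans_eq (Finset.sum_congr rfl fun i _ => by ring))
      simp only [hw, Pi.sub_apply]
      rw [pow_add (P.cut h x) M 3, inv_pow]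
      field_simp
    · rw [integral_finsetSum _ fun i _ => (hI _ _ (hdeg i)).1.const_mul _]
      refine Finset.sum_eq_zero fun i _ => ?_
      rw [integral_const_mul, (hI _ _ (hdeg i)).2, mul_zero]
  rw [integral_sub (iX.const_mul ε) (iT.const_mul N), integral_const_mul, integral_const_mul] at key
  rw [div_mul_eq_mul_div, le_div_iff₀ hε]
  linarith

end Vale.Agent.P252D
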