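import Vale.Agent.P252B.Convex

/-!
Euclidean completeness of the graph (completeness for the metric `δ + du ⊗ du`) is equivalent to
closedness of the graph, for a smooth uniformly convex function on an open convex set.
-/

open Set MeasureTheory Filter Topology

namespace Vale.Agent.P252D

open Vale.Agent.P252B (V Admissible tangent_le convex_comb_le diffAt_of_mem)

variable {n : ℕ}

/-- Length of the curve `c` on `[0,1]` in the metric `g = δ + du ⊗ du` induced on the graph. -/
noncomputable def graphLength (u : V n → ℝ) (c : ℝ → V n) : ℝ :=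
  ∫ t in (0:ℝ)..1, √(‖deriv c t‖ ^ 2 + (fderiv ℝ u (c t) (deriv c t)) ^ 2)

/-- The `g`-distance of `x` and `y` is less than `ε`: a `C¹` curve in `Ω` from `x` to `y` has
length less than `ε`. -/
def GDistLT (Ω : Set (V n)) (u : V n → ℝ) (x y : V n) (ε : ℝ) : Prop :=
  ∃ c : ℝ → V n, ContDiff ℝ 1 c ∧ (∀ t ∈ Icc (0:ℝ) 1, c t ∈ Ω) ∧ c 0 = x ∧ c 1 = y ∧
    graphLength u c < ε

/-- The graph of `u` over `Ω` is complete for the induced Euclidean metric `δ + du ⊗ du`: every
Cauchy sequence of the Riemannian distance converges. -/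
def EuclideanComplete (Ω : Set (V n)) (u : V n → ℝ) : Prop :=
  ∀ x : ℕ → V n, (∀ k, x k ∈ Ω) →
    (∀ ε > 0, ∃ N, ∀ j ≥ N, ∀ k ≥ N, GDistLT Ω u (x j) (x k) ε) →
      ∃ y ∈ Ω, ∀ ε > 0, ∃ N, ∀ k ≥ N, GDistLT Ω u y (x k) ε

variable {Ω : Set (V n)} {u : V n → ℝ}

section curve

variable {c : ℝ → V n} (hu : Admissible Ω u) (hc : ContDiff ℝ 1 c)
  (hm : ∀ t ∈ Icc (0:ℝ) 1, c t ∈ Ω)
include hu hc hm

lemma continuousOn_du :
    ContinuousOn (fun t => fderiv ℝ u (c t) (deriv c t)) (Icc 0 1) :=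
  ((hu.2.2.1.continuousOn_fderiv_of_isOpen hu.1 (by simp)).comp hc.continuous.continuousOn
    hm).clm_apply (hc.continuous_deriv le_rfl).continuousOn

lemma continuousOn_speed :
    ContinuousOn (fun t => √(‖deriv c t‖ ^ 2 + (fderiv ℝ u (c t) (deriv c t)) ^ 2)) (Icc 0 1) :=
  (((hc.continuous_deriv le_rfl).continuousOn.norm.pow 2).add
    ((continuousOn_du hu hc hm).pow 2)).sqrt

lemma integral_du :
    ∫ t in (0:ℝ)..1, fderiv ℝ u (c t) (deriv c t) = u (c 1) - u (c 0) := by
  refine intervalIntegral.integral_eq_sub_of_hasDerivAt (f := fun t => u (c t)) (fun t ht => ?_)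
    ((continuousOn_du hu hc hm).intervalIntegrable_of_Icc zero_le_one)
  rw [uIcc_of_le zero_le_one] at ht
  exact (diffAt_of_mem hu.1 hu.2.2.1 (hm t ht)).hasFDerivAt.comp_hasDerivAt t
    (hc.differentiable one_ne_zero t).hasDerivAt

lemma norm_sub_le_graphLength : ‖c 1 - c 0‖ ≤ graphLength u c := by
  have hd := hc.continuous_deriv le_rfl
  rw [← intervalIntegral.integral_eq_sub_of_hasDerivAt
    (fun t _ => (hc.differentiable one_ne_zero t).hasDerivAt) (hd.intervalIntegrable 0 1)]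
  refine intervalIntegral.norm_integral_le_of_norm_le zero_le_one ?_
    ((continuousOn_speed hu hc hm).intervalIntegrable_of_Icc zero_le_one)
  exact ae_of_all _ fun t _ => Real.le_sqrt_of_sq_le (le_add_of_nonneg_right (sq_nonneg _))

lemma abs_sub_le_graphLength : |u (c 1) - u (c 0)| ≤ graphLength u c := by
  rw [← integral_du hu hc hm, ← Real.norm_eq_abs]
  refine intervalIntegral.norm_integral_le_of_norm_le zero_le_one ?_
    ((continuousOn_speed hu hc hm).intervalIntegrable_of_Icc zero_le_one)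
  refine ae_of_all _ fun t _ => Real.le_sqrt_of_sq_le ?_
  rw [Real.norm_eq_abs, sq_abs]
  exact le_add_of_nonneg_left (sq_nonneg _)

end curve

/-- The segment from `p` in direction `d`, between the parameters `s` and `r`, is short when
`du(d) ≥ -K` along it. -/
lemma gdistLT_segment (hu : Admissible Ω u) {p d : V n} {s r K ε : ℝ} (hK : 0 ≤ K)
    (hm : ∀ a ∈ uIcc s r, p + a • d ∈ Ω ∧ -K ≤ fderiv ℝ u (p + a • d) d)
    (hε : (‖d‖ + 2 * K) * |r - s| + |u (p + r • d) - u (p + s • d)| < ε) :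
    GDistLT Ω u (p + s • d) (p + r • d) ε := by
  set δ := r - s with hδ
  set c : ℝ → V n := fun t => p + (s + t * δ) • d with hc'
  have hc : ContDiff ℝ 1 c := by fun_prop
  have hin : ∀ t ∈ Icc (0:ℝ) 1, s + t * δ ∈ uIcc s r := by
    intro t ht
    rw [← segment_eq_uIcc]
    exact ⟨1 - t, t, sub_nonneg.2 ht.2, ht.1, by ring, by simp only [smul_eq_mul, hδ]; ring⟩
  have hcm : ∀ t ∈ Icc (0:ℝ) 1, c t ∈ Ω := fun t ht => (hm _ (hin t ht)).1
  refine ⟨c, hc, hcm, by simp [hc'], by simp [hc', hδ], lt_of_le_of_lt ?_ hε⟩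
  have hd : ∀ t, deriv c t = δ • d := fun t => by
    have := ((((hasDerivAt_id t).mul_const δ).const_add s).smul_const d).const_add p
    simpa [hc'] using this.deriv
  obtain ⟨σ, hσ1, hσ⟩ : ∃ σ : ℝ, |σ| = 1 ∧ |δ| = σ * δ := by
    rcases le_total 0 δ with h | h
    · exact ⟨1, by simp, by rw [abs_of_nonneg h, one_mul]⟩
    · exact ⟨-1, by simp, by rw [abs_of_nonpos h]; ring⟩
  have hb : ∀ t ∈ Icc (0:ℝ) 1, √(‖deriv c t‖ ^ 2 + (fderiv ℝ u (c t) (deriv c t)) ^ 2) ≤
      (‖d‖ + 2 * K) * |δ| + σ * fderiv ℝ u (c t) (deriv c t) := by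
    intro t ht
    set v := fderiv ℝ u (c t) d with hv
    have hv' : -K ≤ v := (hm _ (hin t ht)).2
    have h1 : |v| ≤ v + 2 * K := abs_le.2 ⟨by linarith, by linarith⟩
    have h2 : 0 ≤ ‖d‖ := norm_nonneg d
    have h3 := mul_le_mul_of_nonneg_left h1 (abs_nonneg δ)
    have h4 : √(‖δ • d‖ ^ 2 + (δ * v) ^ 2) ≤ |δ| * ‖d‖ + |δ| * |v| := by
      refine (Real.sqrt_le_left (by positivity)).2 ?_
      rw [norm_smul, Real.norm_eq_abs]
      nlinarith [mul_nonneg (mul_nonneg (abs_nonneg δ) h2) (mul_nonneg (abs_nonneg δ) (abs_nonneg v)),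
        sq_abs v, sq_abs δ]
    rw [hd, map_smul, smul_eq_mul, ← hv]
    refine h4.trans ?_
    have h5 : σ * (δ * v) = |δ| * v := by rw [hσ]; ring
    rw [h5]
    linarith
  have hi := (continuousOn_du hu hc hcm).intervalIntegrable_of_Icc (μ := volume) zero_le_one
  calc graphLength u c
      ≤ ∫ t in (0:ℝ)..1, ((‖d‖ + 2 * K) * |δ| + σ * fderiv ℝ u (c t) (deriv c t)) :=
        intervalIntegral.integral_mono_on zero_le_one
          ((continuousOn_speed hu hc hcm).intervalIntegrable_of_Icc zero_le_one)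
          (intervalIntegrable_const.add (hi.const_mul σ)) hb
    _ = (‖d‖ + 2 * K) * |δ| + σ * (u (c 1) - u (c 0)) := by
        rw [intervalIntegral.integral_add intervalIntegrable_const (hi.const_mul σ),
          intervalIntegral.integral_const, intervalIntegral.integral_const_mul,
          integral_du hu hc hcm]
        simp
    _ ≤ (‖d‖ + 2 * K) * |δ| + |u (p + r • d) - u (p + s • d)| := by
        have e0 : c 0 = p + s • d := by simp [hc']
        have e1 : c 1 = p + r • d := by simp [hc', hδ]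
        rw [e0, e1]
        gcongr
        refine (le_abs_self _).trans ?_
        rw [abs_mul, hσ1, one_mul]

/-- A Euclidean complete graph is closed. -/
theorem EuclideanComplete.isClosed_graph (hu : Admissible Ω u) (hC : EuclideanComplete Ω u) :
    IsClosed {q : V n × ℝ | q.1 ∈ Ω ∧ q.2 = u q.1} := by
  refine IsSeqClosed.isClosed fun q lim hq hlim => ?_
  obtain ⟨hΩ, hcv, hsm, -⟩ := id hu
  set b := lim.1 with hb'
  have hx : Tendsto (fun k => (q k).1) atTop (𝓝 b) := (continuous_fst.tendsto lim).comp hlim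
  have ht : Tendsto (fun k => u (q k).1) atTop (𝓝 lim.2) :=
    ((continuous_snd.tendsto lim).comp hlim).congr fun k => (hq k).2
  suffices hb : b ∈ Ω from ⟨hb, tendsto_nhds_unique ht
    (((hsm.continuousOn b hb).tendsto).comp (tendsto_nhdsWithin_iff.2
      ⟨hx, Eventually.of_forall fun k => (hq k).1⟩))⟩
  set p := (q 0).1
  have hp : p ∈ Ω := (hq 0).1
  set d := b - p with hd
  have hbc : b ∈ closure Ω := mem_closure_of_tendsto hx (Eventually.of_forall fun k => (hq k).1)
  have hseg : ∀ a ∈ Ico (0:ℝ) 1, p + a • d ∈ Ω := by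
    intro a ha
    have h := hcv.combo_interior_closure_mem_interior (hΩ.interior_eq.symm ▸ hp) hbc
      (a := 1 - a) (b := a) (by linarith [ha.2]) ha.1 (by ring)
    rw [hΩ.interior_eq] at h
    convert h using 1
    rw [hd]; module
  set f : ℝ → ℝ := fun a => u (p + a • d)
  set K := max 0 (-fderiv ℝ u p d) with hK
  have hK0 : 0 ≤ K := le_max_left _ _
  have hlow : ∀ a ∈ Ico (0:ℝ) 1, -K ≤ fderiv ℝ u (p + a • d) d := by
    intro a ha
    have h0 : -K ≤ fderiv ℝ u p d := by linarith [le_max_right (0:ℝ) (-fderiv ℝ u p d)]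
    rcases eq_or_lt_of_le ha.1 with h | h
    · simpa [← h] using h0
    have h1 := tangent_le hu hp (hseg a ha)
    have h2 := tangent_le hu (hseg a ha) hp
    simp only [add_sub_cancel_left, sub_add_cancel_left, map_smul, map_neg, smul_eq_mul] at h1 h2
    exact h0.trans (le_of_mul_le_mul_left (by linarith) h)
  have hmono : ∀ a ∈ Ico (0:ℝ) 1, ∀ a' ∈ Ico (0:ℝ) 1, a ≤ a' → f a + K * a ≤ f a' + K * a' := by
    intro a ha a' ha' haa
    have h1 := tangent_le hu (hseg a ha) (hseg a' ha')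
    rw [add_sub_add_left_eq_sub, ← sub_smul, map_smul, smul_eq_mul] at h1
    simp only [f]
    nlinarith [hlow a ha]
  have hup : ∀ a ∈ Ico (0:ℝ) 1, f a ≤ (1 - a) * u p + a * lim.2 := by
    intro a ha
    have hmem : ∀ k, (1 - a) • p + a • (q k).1 ∈ Ω := fun k =>
      hcv hp (hq k).1 (by linarith [ha.2]) ha.1 (by ring)
    have hl : Tendsto (fun k => (1 - a) • p + a • (q k).1) atTop (𝓝 (p + a • d)) := by
      rw [show p + a • d = (1 - a) • p + a • b by rw [hd]; module]
      exact tendsto_const_nhds.add (hx.const_smul a)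
    refine le_of_tendsto_of_tendsto' (((hsm.continuousOn _ (hseg a ha)).tendsto).comp
      (tendsto_nhdsWithin_iff.2 ⟨hl, Eventually.of_forall hmem⟩))
      (tendsto_const_nhds.add (ht.const_mul a))
      fun k => convex_comb_le hu hp (hq k).1 (by linarith [ha.2]) ha.1 (by ring)
  set s : ℕ → ℝ := fun k => 1 - 1 / ((k : ℝ) + 1) with hs'
  have hsI : ∀ k, s k ∈ Ico (0:ℝ) 1 := fun k => by
    have h1 : (0:ℝ) < 1 / ((k : ℝ) + 1) := by positivity
    have h2 : (1:ℝ) / ((k : ℝ) + 1) ≤ 1 :=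
      (div_le_one (by positivity)).2 (le_add_of_nonneg_left k.cast_nonneg)
    exact ⟨by simp only [hs']; linarith, by simp only [hs']; linarith⟩
  have hst : Tendsto s atTop (𝓝 1) := by
    simpa [hs'] using (tendsto_const_nhds (x := (1:ℝ))).sub
      (tendsto_one_div_add_atTop_nhds_zero_nat (𝕜 := ℝ))
  have hsm' : Monotone s := fun i j hij => by
    simp only [hs']; gcongr
  have hgm : Monotone fun k => f (s k) + K * s k := fun i j hij =>
    hmono _ (hsI i) _ (hsI j) (hsm' hij)
  have hgb : BddAbove (range fun k => f (s k) + K * s k) := by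
    refine ⟨|u p| + |lim.2| + K, ?_⟩
    rintro _ ⟨k, rfl⟩
    have h := hup _ (hsI k)
    have := mul_le_mul_of_nonneg_left (le_abs_self (u p)) (sub_nonneg.2 (hsI k).2.le)
    have := mul_le_mul_of_nonneg_left (le_abs_self lim.2) (hsI k).1
    nlinarith [abs_nonneg (u p), abs_nonneg lim.2, (hsI k).1, (hsI k).2]
  have hf : Tendsto (fun k => f (s k)) atTop
      (𝓝 ((⨆ k, (f (s k) + K * s k)) - K * 1)) :=
    ((tendsto_atTop_ciSup hgm hgb).sub (hst.const_mul K)).congr fun k => by ring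
  obtain ⟨y, hy, hlim'⟩ := hC (fun k => p + s k • d) (fun k => hseg _ (hsI k)) fun ε hε => by
    set R := ‖d‖ + 2 * K with hR
    have hR0 : 0 ≤ R := by positivity
    obtain ⟨N₁, hN₁⟩ := Metric.cauchySeq_iff.1 hst.cauchySeq (ε / (2 * (R + 1))) (by positivity)
    obtain ⟨N₂, hN₂⟩ := Metric.cauchySeq_iff.1 hf.cauchySeq (ε / 2) (by positivity)
    refine ⟨max N₁ N₂, fun j hj k hk => gdistLT_segment hu hK0 (fun a ha => ?_) ?_⟩
    · have : a ∈ Ico (0:ℝ) 1 := OrdConnected.uIcc_subset inferInstance (hsI j) (hsI k) ha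
      exact ⟨hseg a this, hlow a this⟩
    · have h1 := hN₁ k ((le_max_left _ _).trans hk) j ((le_max_left _ _).trans hj)
      have h2 := hN₂ k ((le_max_right _ _).trans hk) j ((le_max_right _ _).trans hj)
      rw [Real.dist_eq] at h1 h2
      rw [lt_div_iff₀ (by positivity)] at h1
      simp only [f] at h2
      rw [← hR]
      nlinarith [abs_nonneg (s k - s j)]
  have hyb : Tendsto (fun k => p + s k • d) atTop (𝓝 y) := by
    refine Metric.tendsto_atTop.2 fun ε hε => ?_
    obtain ⟨N, hN⟩ := hlim' ε hε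
    refine ⟨N, fun k hk => ?_⟩
    obtain ⟨c, hc, hm, h0, h1, hl⟩ := hN k hk
    rw [dist_eq_norm, ← h0, ← h1]
    exact (norm_sub_le_graphLength hu hc hm).trans_lt hl
  have hbb : Tendsto (fun k => p + s k • d) atTop (𝓝 b) := by
    simpa [hd] using (hst.smul_const d).const_add p
  exact tendsto_nhds_unique hyb hbb ▸ hy

/-- A closed graph is Euclidean complete. -/
theorem euclideanComplete_of_isClosed (hu : Admissible Ω u)
    (hcl : IsClosed {q : V n × ℝ | q.1 ∈ Ω ∧ q.2 = u q.1}) : EuclideanComplete Ω u := by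
  intro x hx hcau
  have hcx : CauchySeq fun k => (x k, u (x k)) := by
    refine Metric.cauchySeq_iff.2 fun ε hε => ?_
    obtain ⟨N, hN⟩ := hcau ε hε
    refine ⟨N, fun m hm k hk => ?_⟩
    obtain ⟨c, hc, hcm, h0, h1, hl⟩ := hN k hk m hm
    rw [Prod.dist_eq, max_lt_iff, dist_eq_norm, Real.dist_eq]
    simp only
    rw [← h0, ← h1]
    exact ⟨(norm_sub_le_graphLength hu hc hcm).trans_lt hl,
      (abs_sub_le_graphLength hu hc hcm).trans_lt hl⟩
  obtain ⟨lim, hlim⟩ := cauchySeq_tendsto_of_complete hcx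
  have hy : lim.1 ∈ Ω :=
    (hcl.mem_of_tendsto hlim (Eventually.of_forall fun k => ⟨hx k, rfl⟩)).1
  have hxy : Tendsto x atTop (𝓝 lim.1) := (continuous_fst.tendsto lim).comp hlim
  refine ⟨lim.1, hy, fun ε hε => ?_⟩
  obtain ⟨ρ, hρ, hball⟩ := Metric.nhds_basis_closedBall.mem_iff.1 (hu.1.mem_nhds hy)
  obtain ⟨C, hC⟩ := (isCompact_closedBall lim.1 ρ).exists_bound_of_continuousOn
    ((hu.2.2.1.continuousOn_fderiv_of_isOpen hu.1 (by simp)).mono hball)
  have hC0 : 0 ≤ C := (norm_nonneg _).trans (hC lim.1 (Metric.mem_closedBall_self hρ.le))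
  have hC' : ∀ᶠ k in atTop, ‖x k - lim.1‖ < min ρ (ε / (3 * C + 2)) := by
    simpa [← dist_eq_norm] using Metric.tendsto_nhds.1 hxy _ (lt_min hρ (by positivity))
  obtain ⟨N, hN⟩ := eventually_atTop.1 hC'
  refine ⟨N, fun k hk => ?_⟩
  set d := x k - lim.1 with hd
  have hin : ∀ a ∈ Icc (0:ℝ) 1, lim.1 + a • d ∈ Metric.closedBall lim.1 ρ := fun a ha => by
    rw [Metric.mem_closedBall, dist_eq_norm, add_sub_cancel_left, norm_smul, Real.norm_eq_abs,
      abs_of_nonneg ha.1]
    exact (mul_le_of_le_one_left (norm_nonneg d) ha.2).trans (lt_min_iff.1 (hN k hk)).1.le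
  have hbd : ∀ a ∈ Icc (0:ℝ) 1, |fderiv ℝ u (lim.1 + a • d) d| ≤ C * ‖d‖ := fun a ha => by
    rw [← Real.norm_eq_abs]
    exact ((fderiv ℝ u _).le_opNorm d).trans
      (mul_le_mul_of_nonneg_right (hC _ (hin a ha)) (norm_nonneg d))
  have hdu : |u (lim.1 + (1:ℝ) • d) - u (lim.1 + (0:ℝ) • d)| ≤ C * ‖d‖ := by
    have := (convex_closedBall lim.1 ρ).norm_image_sub_le_of_norm_fderiv_le
      (fun z hz => diffAt_of_mem hu.1 hu.2.2.1 (hball hz)) hC (hin 0 (by simp)) (hin 1 (by simp))
    simpa [Real.norm_eq_abs] using this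
  have hg := gdistLT_segment (p := lim.1) (d := d) (s := 0) (r := 1) (K := C * ‖d‖) (ε := ε) hu
    (by positivity) (fun a ha => ?_) ?_
  · simpa [hd] using hg
  · rw [uIcc_of_le zero_le_one] at ha
    exact ⟨hball (hin a ha), (abs_le.1 (hbd a ha)).1⟩
  · have h := (lt_min_iff.1 (hN k hk)).2
    rw [lt_div_iff₀ (by positivity)] at h
    rw [sub_zero, abs_one, mul_one]
    nlinarith [norm_nonneg d]

/-- Euclidean completeness is closedness of the graph. -/
theorem euclideanComplete_iff (hu : Admissible Ω u) :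
    EuclideanComplete Ω u ↔ IsClosed {q : V n × ℝ | q.1 ∈ Ω ∧ q.2 = u q.1} :=
  ⟨fun h => h.isClosed_graph hu, euclideanComplete_of_isClosed hu⟩

/-- Every entire graph is Euclidean complete. -/
theorem euclideanComplete_univ (hu : Admissible univ u) : EuclideanComplete univ u :=
  euclideanComplete_of_isClosed hu <| by
    simpa using isClosed_eq continuous_snd
      ((continuousOn_univ.1 hu.2.2.1.continuousOn).comp (continuous_fst (X := V n) (Y := ℝ)))

end Vale.Agent.P252D
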