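import Vale.Agent.P252B.Defs

/-!
Frozen interfaces for the rigidity theorem in dimension three.
-/

open Set MeasureTheory

namespace Vale.Agent.P252D

open Vale.Agent.P252 (hessian)
open Vale.Agent.P252B (V pd Admissible IsAM)

/-- A solution normalised at `p₀`: value and differential vanish there. -/
structure Sol where
  Ω : Set (V 3)
  u : V 3 → ℝ
  adm : Admissible Ω u
  am : IsAM Ω u
  closed_graph : IsClosed {p : V 3 × ℝ | p.1 ∈ Ω ∧ p.2 = u p.1}
  p₀ : V 3
  mem₀ : p₀ ∈ Ω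
  val₀ : u p₀ = 0
  diff₀ : fderiv ℝ u p₀ = 0

/-- The determinant of the Hessian. -/
noncomputable def dt (u : V 3 → ℝ) (x : V 3) : ℝ := (hessian u x).det

/-- `L = -log det / 5`. -/
noncomputable def lg (u : V 3 → ℝ) (x : V 3) : ℝ := -Real.log (dt u x) / 5

/-- The pairing of two differentials in the metric `g = D²u`. -/
noncomputable def gdot (u f g : V 3 → ℝ) (x : V 3) : ℝ :=
  ∑ i, ∑ j, (hessian u x)⁻¹ i j * pd f i x * pd g j x

/-- `X = |dL|²` in the metric `g`. -/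
noncomputable def qX (u : V 3 → ℝ) (x : V 3) : ℝ := gdot u (lg u) (lg u) x

namespace Sol

variable (P : Sol)

/-- The section of height `h`. -/
def sec (h : ℝ) : Set (V 3) := {x | x ∈ P.Ω ∧ P.u x < h}

/-- The closed section of height `h`. -/
def csec (h : ℝ) : Set (V 3) := {x | x ∈ P.Ω ∧ P.u x ≤ h}

/-- The cutoff `v = h - u`. -/
def cut (h : ℝ) (x : V 3) : ℝ := h - P.u x

end Sol

/-- The mass bound with exponent `M`. -/
def MassSpec (M : ℕ) : Prop :=
  ∃ N : ℝ, ∀ (P : Sol) (h : ℝ), 0 < h →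
    (∫ x in P.sec h, P.cut h x ^ M * dt P.u x) ≤ N * h ^ (M + 3) / (volume (P.sec h)).toReal

/-- What the divergence certificate yields: the cutoff exponent is `M + 3`, the measure is
`det ^ σ`. -/
def CertSpec (M : ℕ) (σ : ℝ) : Prop :=
  ∃ N : ℝ, ∀ (P : Sol) (h : ℝ), 0 < h →
    (∫ x in P.sec h, P.cut h x ^ (M + 3) * qX P.u x ^ 3 * dt P.u x ^ σ) ≤
      N * ∫ x in P.sec h, P.cut h x ^ M * dt P.u x ^ σ

/-- A solution with constant determinant is an entire quadratic. -/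
def DetConstSpec : Prop :=
  ∀ (P : Sol) (D : ℝ), (∀ x ∈ P.Ω, dt P.u x = D) →
    P.Ω = univ ∧ ∃ (A : Fin 3 → Fin 3 → ℝ) (b : Fin 3 → ℝ) (c : ℝ),
      ∀ x, P.u x = (∑ i, ∑ j, A i j * x i * x j) + (∑ i, b i * x i) + c

end Vale.Agent.P252D
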