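import Vale.Agent.P252C.Main
import Vale.Agent.P252D.Defs

/-!
The constant determinant module of the rigidity assembly.
-/

open Set

namespace Vale.Agent.P252D

/-- A solution with constant determinant and closed graph is an entire quadratic. -/
theorem detConstSpec : DetConstSpec := fun P D hD => by
  obtain ⟨hΩ, A, b, c, h⟩ :=
    P252C.det_const_quadratic P.adm ⟨P.p₀, P.mem₀⟩ P.closed_graph hD
  refine ⟨hΩ, fun i j => A i j / 2, b, c, fun x => ?_⟩
  rw [h x, Finset.sum_div]
  simp only [Finset.sum_div, div_mul_eq_mul_div]

end Vale.Agent.P252D
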