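import Vale.Agent.P252D.Complete

/-!
Elliptic paraboloids: the converse direction (they solve the equation and have complete graphs), and
the normal form of an entire quadratic solution.
-/

open Set Matrix Finset

namespace Vale.Agent.P252D

open Vale.Agent.P252 (hessian)
open Vale.Agent.P252B (V Admissible IsAM)

variable {n : ℕ}

/-- The quadratic polynomial `xᵀAx + b·x + c`. -/
def quad (A : Fin n → Fin n → ℝ) (b : Fin n → ℝ) (c : ℝ) (x : V n) : ℝ :=
  (∑ i, ∑ j, A i j * x i * x j) + (∑ i, b i * x i) + c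

lemma hessian_quad (A : Fin n → Fin n → ℝ) (b : Fin n → ℝ) (c : ℝ) (x : V n) (p q : Fin n) :
    hessian (quad A b c) x p q = A p q + A q p := by
  set P : Fin n → V n →L[ℝ] ℝ := fun i => PiLp.proj 2 (fun _ : Fin n => ℝ) i with hP
  set L : V n → (V n →L[ℝ] ℝ) := fun y =>
    (∑ i, ∑ j, A i j • (y i • P j + y j • P i)) + ∑ i, b i • P i
  have hd : ∀ y, HasFDerivAt (quad A b c) (L y) y := by
    intro y
    have h1 := HasFDerivAt.fun_sum (u := Finset.univ) fun (i : Fin n) _ =>
      HasFDerivAt.fun_sum (u := Finset.univ) fun (j : Fin n) _ =>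
        ((((P i).hasFDerivAt (x := y)).mul ((P j).hasFDerivAt (x := y))).const_mul (A i j))
    have h2 := HasFDerivAt.fun_sum (u := Finset.univ) fun (i : Fin n) _ =>
      ((P i).hasFDerivAt (x := y)).const_mul (b i)
    have h3 := ((h1.add h2).add_const c)
    refine HasFDerivAt.congr_of_eventuallyEq (h3.congr_fderiv ?_)
      (Filter.Eventually.of_forall fun z => ?_)
    · rfl
    · simp [quad, hP, mul_assoc]
  set M : V n →L[ℝ] (V n →L[ℝ] ℝ) :=
    ∑ i, ∑ j, A i j • ((P i).smulRight (P j) + (P j).smulRight (P i)) with hM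
  have hL : ∀ y, L y = M y + ∑ i, b i • P i := by
    intro y; ext z; simp [L, hM, hP]
  have e : fderiv ℝ (quad A b c) = fun y => M y + ∑ i, b i • P i := by
    funext y; rw [(hd y).fderiv, hL]
  simp only [hessian, Matrix.of_apply, e]
  rw [(M.hasFDerivAt.add_const _).fderiv]
  simp [hM, hP, Finset.sum_add_distrib, PiLp.single_apply]

lemma isAM_quad (A : Fin n → Fin n → ℝ) (b : Fin n → ℝ) (c : ℝ) (Ω : Set (V n)) :
    IsAM Ω (quad A b c) := by
  intro x _
  have e : (fun y => (hessian (quad A b c) y).det ^ (-(((n : ℝ) + 1) / ((n : ℝ) + 2)))) =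
      fun _ => (Matrix.of fun p q => A p q + A q p).det ^ (-(((n : ℝ) + 1) / ((n : ℝ) + 2))) := by
    funext y
    congr 2
    ext p q
    exact hessian_quad A b c y p q
  rw [e]
  simp [hessian]

/-- An elliptic paraboloid is a Euclidean complete solution. -/
theorem paraboloid_solves {A : Fin n → Fin n → ℝ} (hA : (Matrix.of fun p q => A p q + A q p).PosDef)
    (b : Fin n → ℝ) (c : ℝ) :
    Admissible univ (quad A b c) ∧ IsAM univ (quad A b c) ∧
      EuclideanComplete univ (quad A b c) := by
  have h : Admissible univ (quad A b c) := by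
    refine ⟨isOpen_univ, convex_univ, ?_, fun x _ => ?_⟩
    · refine ContDiff.contDiffOn ?_
      unfold quad
      fun_prop
    · convert hA using 1
      ext p q
      exact hessian_quad A b c x p q
  exact ⟨h, isAM_quad A b c univ, euclideanComplete_univ h⟩

/-- An entire admissible quadratic is `xᵀAx/2 + b·x + c` with `A` positive definite. -/
theorem paraboloid_form {u : V n → ℝ} (hu : Admissible univ u) {A : Fin n → Fin n → ℝ}
    {b : Fin n → ℝ} {c : ℝ}
    (h : ∀ x, u x = (∑ i, ∑ j, A i j * x i * x j) + (∑ i, b i * x i) + c) :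
    ∃ (S : Matrix (Fin n) (Fin n) ℝ) (b : Fin n → ℝ) (c : ℝ), S.PosDef ∧
      ∀ x : V n, u x = (∑ i, ∑ j, S i j * x i * x j) / 2 + (∑ i, b i * x i) + c := by
  refine ⟨Matrix.of fun p q => A p q + A q p, b, c, ?_, fun x => ?_⟩
  · have hu' : u = quad A b c := funext h
    convert hu.2.2.2 0 (mem_univ _) using 1
    ext p q
    rw [hu', hessian_quad, Matrix.of_apply]
  · have hs : (∑ i, ∑ j, A j i * x i * x j) = ∑ i, ∑ j, A i j * x i * x j := by
      rw [Finset.sum_comm]
      exact Finset.sum_congr rfl fun i _ => Finset.sum_congr rfl fun j _ => by ring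
    simp only [h x, Matrix.of_apply, add_mul, Finset.sum_add_distrib, hs]
    ring

end Vale.Agent.P252D
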