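import Vale.Agent.P252D.Final
import Vale.Agent.P252D.Quadratic
import Vale.Agent.P252E.Main
import Vale.Agent.P252M.Radial

/-!
Unfolding of the rigidity theorem in dimension three to elementary hypotheses.
-/

open Set MeasureTheory

namespace Vale.Agent.P252D

open Vale.Agent.P252 (hessian)
open Vale.Agent.P252B (V Admissible IsAM)
open Vale.Agent.P252E (Fld udeg)

/-- The conclusion of the rigidity theorem. -/
theorem three_unfolded {ι : Type} [Fintype ι] {F : ι → Fld} {e : ι → ℕ × ℕ × ℕ} {c : ι → ℝ}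
    {ε N : ℝ}
    (hdeg : ∀ i, udeg (F i) (e i) + 2 ≤ 24) (hε : 0 < ε) (hP : PointCert (19/20) 24 F e c ε N) :
    (∀ (Ω : Set (EuclideanSpace ℝ (Fin 3))) (u : EuclideanSpace ℝ (Fin 3) → ℝ),
      IsOpen Ω → Convex ℝ Ω → Ω.Nonempty → ContDiffOn ℝ (↑(⊤ : ℕ∞)) u Ω →
      (∀ x ∈ Ω, (hessian u x).PosDef) →
      (((∀ x ∈ Ω, ∑ i, ∑ j, ((hessian u x).det * (hessian u x)⁻¹ i j)
        * hessian (fun y => (hessian u y).det ^ (-((4 : ℝ) / 5))) x i j = 0) ∧
      EuclideanComplete Ω u) ↔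
      Ω = univ ∧ ∃ (A : Matrix (Fin 3) (Fin 3) ℝ) (b : Fin 3 → ℝ) (c : ℝ), A.PosDef ∧
        ∀ x, u x = (∑ i, ∑ j, A i j * x i * x j) / 2 + (∑ i, b i * x i) + c)) ∧
    ∀ u : EuclideanSpace ℝ (Fin 3) → ℝ, ContDiff ℝ (↑(⊤ : ℕ∞)) u →
      (∀ x, (hessian u x).PosDef) →
      (∀ x, ∑ i, ∑ j, ((hessian u x).det * (hessian u x)⁻¹ i j)
        * hessian (fun y => (hessian u y).det ^ (-((4 : ℝ) / 5))) x i j = 0) →
      ∃ (A : Matrix (Fin 3) (Fin 3) ℝ) (b : Fin 3 → ℝ) (c : ℝ), A.PosDef ∧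
        ∀ x, u x = (∑ i, ∑ j, A i j * x i * x j) / 2 + (∑ i, b i * x i) + c := by
  have e : ((((3 : ℕ) : ℝ) + 1) / (((3 : ℕ) : ℝ) + 2)) = 4 / 5 := by norm_num
  refine ⟨fun Ω u ho hc hne hs hp => ⟨fun hh => rigidity_three P252M.massSpec (P252E.divSpec _ _)
    hdeg hε hP Ω u hne ⟨ho, hc, hs, hp⟩ (fun x hx => by rw [e]; exact hh.1 x hx) hh.2, ?_⟩,
    fun u hs hp ham => ?_⟩
  · rintro ⟨rfl, S, b, d, -, h⟩
    have hu' : u = quad (fun i j => S i j / 2) b d := funext fun x => by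
      rw [h x, quad]
      simp only [Finset.sum_div, div_mul_eq_mul_div]
    refine ⟨fun x hx => ?_, euclideanComplete_univ ⟨isOpen_univ, convex_univ, hs, hp⟩⟩
    have hq := isAM_quad (fun i j => S i j / 2) b d univ x hx
    rw [e, ← hu'] at hq
    exact hq
  have hu : Admissible (univ : Set (V 3)) u :=
    ⟨isOpen_univ, convex_univ, hs.contDiffOn, fun x _ => hp x⟩
  exact (rigidity_three P252M.massSpec (P252E.divSpec _ _) hdeg hε hP univ u univ_nonempty hu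
    (fun x _ => by rw [e]; exact ham x) (euclideanComplete_univ hu)).2

end Vale.Agent.P252D
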