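import Vale.Agent.P252D.Sections

/-!
Monotonicity of the mass bound in the exponent.
-/

open Set MeasureTheory

namespace Vale.Agent.P252D

open Vale.Agent.P252B (V)

/-- A larger exponent is weaker. -/
theorem massSpec_mono {M : ℕ} (k : ℕ) (hM : MassSpec M) : MassSpec (M + k) := by
  obtain ⟨N, hN⟩ := hM
  refine ⟨N, fun P h hh => ?_⟩
  have ion : ∀ {f : V 3 → ℝ}, ContinuousOn f P.Ω → IntegrableOn f (P.sec h) volume :=
    fun hf => ((hf.mono (P.csec_subset h)).integrableOn_compact (P.isCompact_csec h)).mono_set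
      (P.sec_subset_csec h)
  have hd := P.contDiffOn_dt.continuousOn
  refine (setIntegral_mono_on (ion (((P.continuousOn_cut h).pow _).mul hd))
    ((ion (((P.continuousOn_cut h).pow M).mul hd)).const_mul (h ^ k)) (P.measurableSet_sec h)
    fun x hx => ?_).trans ?_
  · show P.cut h x ^ (M + k) * dt P.u x ≤ h ^ k * (P.cut h x ^ M * dt P.u x)
    rw [pow_add, mul_comm (P.cut h x ^ M), mul_assoc]
    exact mul_le_mul_of_nonneg_right (pow_le_pow_left₀ (P.cut_nonneg hx) (P.cut_le hx) k)
      (mul_nonneg (pow_nonneg (P.cut_nonneg hx) _) (P.dt_pos (P.sec_subset h hx)).le)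
  · rw [integral_const_mul]
    refine (mul_le_mul_of_nonneg_left (hN P h hh) (by positivity)).trans (le_of_eq ?_)
    ring

end Vale.Agent.P252D
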