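import Vale.Agent.P252D.Assembly
import Vale.Agent.P252D.MassGlue
import Vale.Agent.P252D.CertGlue
import Vale.Agent.P252D.Complete
import Vale.Agent.P252D.DetConst

/-!
The rigidity theorem in dimension three from the radial step, the divergence identities and the
pointwise certificate.
-/

open Set MeasureTheory

namespace Vale.Agent.P252D

open Vale.Agent.P252 (hessian)
open Vale.Agent.P252B (V pd Admissible IsAM tangent_lt)
open Vale.Agent.P252E (Fld udeg)

/-- An entire solution which is a polynomial of degree two is an elliptic paraboloid. -/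
lemma paraboloid {u : V 3 → ℝ} (hu : Admissible univ u) {A : Fin 3 → Fin 3 → ℝ}
    {b : Fin 3 → ℝ} {c : ℝ}
    (h : ∀ x, u x = (∑ i, ∑ j, A i j * x i * x j) + (∑ i, b i * x i) + c) :
    ∃ (S : Matrix (Fin 3) (Fin 3) ℝ) (b : Fin 3 → ℝ) (c : ℝ), S.PosDef ∧
      ∀ x, u x = (∑ i, ∑ j, S i j * x i * x j) / 2 + (∑ i, b i * x i) + c := by
  refine ⟨Matrix.of fun i j => A i j + A j i, b, c, Matrix.PosDef.of_dotProduct_mulVec_pos ?_ ?_,
    fun x => ?_⟩
  · ext i j
    simp [add_comm]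
  · intro a ha
    set x : V 3 := WithLp.toLp 2 a with hx
    have hx0 : x ≠ 0 := fun e => ha (by
      simpa [hx] using congrArg (fun v : V 3 => v.ofLp) e)
    have h1 := tangent_lt hu (mem_univ (0 : V 3)) (mem_univ x) (Ne.symm hx0)
    have h2 := tangent_lt hu (mem_univ (0 : V 3)) (mem_univ (-x))
      (Ne.symm (neg_ne_zero.2 hx0))
    simp only [sub_zero, map_neg] at h1 h2
    rw [h x, h 0] at h1
    rw [h (-x), h 0] at h2
    simp only [hx, dotProduct, Matrix.mulVec, Matrix.of_apply, star_trivial,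
      Fin.sum_univ_three] at h1 h2 ⊢
    simp at h1 h2
    nlinarith
  · rw [h x]
    simp only [Matrix.of_apply, Fin.sum_univ_three]
    ring

/-- Rigidity under Euclidean completeness, from the three analytic inputs. -/
theorem rigidity_three {ι : Type} [Fintype ι] {F : ι → Fld} {e : ι → ℕ × ℕ × ℕ} {c : ι → ℝ}
    {ε N : ℝ} (hR : MassSpec 17) (hV : DivSpec (19/20) 24)
    (hdeg : ∀ i, udeg (F i) (e i) + 2 ≤ 24) (hε : 0 < ε) (hP : PointCert (19/20) 24 F e c ε N)
    (Ω : Set (V 3)) (u : V 3 → ℝ) (hne : Ω.Nonempty) (hu : Admissible Ω u) (ham : IsAM Ω u)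
    (hC : EuclideanComplete Ω u) :
    Ω = univ ∧ ∃ (S : Matrix (Fin 3) (Fin 3) ℝ) (b : Fin 3 → ℝ) (c : ℝ), S.PosDef ∧
      ∀ x, u x = (∑ i, ∑ j, S i j * x i * x j) / 2 + (∑ i, b i * x i) + c := by
  obtain ⟨hΩ, A, b', c', h⟩ := rigidity (M := 21) (σ := 19/20) (by norm_num) (by norm_num)
    (massSpec_mono 4 hR) (certSpec (M := 21) hdeg hε hP hV) detConstSpec
    Ω u hne hu ham (hC.isClosed_graph hu)
  exact ⟨hΩ, paraboloid (hΩ ▸ hu) h⟩

end Vale.Agent.P252D
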