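import Vale.Agent.P252D.Defs
import Vale.Agent.P252B.Convex

/-!
Sections of a normalised solution: compactness, monotonicity, exhaustion, smoothness of the data.
-/

open Set MeasureTheory Metric Matrix Finset

namespace Vale.Agent.P252D

open Vale.Agent.P252 (hessian)
open Vale.Agent.P252B (V pd Admissible IsAM tangent_lt tangent_le convex_comb_le contDiffOn_hessian
  contDiffOn_det contDiffOn_pd contDiffOn_adj fderiv_apply_sum diffAt_of_mem)

namespace Sol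

variable (P : Sol)

lemma isOpen : IsOpen P.Ω := P.adm.1

lemma convex : Convex ℝ P.Ω := P.adm.2.1

lemma smooth : ContDiffOn ℝ (↑(⊤ : ℕ∞)) P.u P.Ω := P.adm.2.2.1

lemma posDef {x : V 3} (hx : x ∈ P.Ω) : (hessian P.u x).PosDef := P.adm.2.2.2 x hx

lemma nonneg {x : V 3} (hx : x ∈ P.Ω) : 0 ≤ P.u x := by
  simpa [P.val₀, P.diff₀] using tangent_le P.adm P.mem₀ hx

lemma pos {x : V 3} (hx : x ∈ P.Ω) (hne : x ≠ P.p₀) : 0 < P.u x := by
  simpa [P.val₀, P.diff₀] using tangent_lt P.adm P.mem₀ hx (Ne.symm hne)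

lemma csec_bounded (h : ℝ) : ∃ R, P.csec h ⊆ closedBall P.p₀ R := by
  obtain ⟨r, hr, hball⟩ := Metric.nhds_basis_closedBall.mem_iff.1 (P.isOpen.mem_nhds P.mem₀)
  have hsub : sphere P.p₀ r ⊆ P.Ω := sphere_subset_closedBall.trans hball
  obtain ⟨y₀, hy₀, hmin⟩ := (isCompact_sphere P.p₀ r).exists_isMinOn
    (NormedSpace.sphere_nonempty.2 hr.le) (P.smooth.continuousOn.mono hsub)
  set m := P.u y₀ with hm
  have hm0 : 0 < m := P.pos (hsub hy₀) fun e => by
    rw [e, mem_sphere, dist_self] at hy₀; linarith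
  refine ⟨max r (r * h / m), fun x hx => ?_⟩
  rw [mem_closedBall]
  set ρ := dist x P.p₀ with hρ
  by_cases hρr : ρ ≤ r
  · exact hρr.trans (le_max_left _ _)
  push Not at hρr
  refine le_trans ?_ (le_max_right _ _)
  have hρ0 : 0 < ρ := hr.trans hρr
  set y := (1 - r / ρ) • P.p₀ + (r / ρ) • x with hy
  have hys : y ∈ sphere P.p₀ r := by
    rw [mem_sphere, dist_eq_norm]
    have e : y - P.p₀ = (r / ρ) • (x - P.p₀) := by rw [hy]; module
    rw [e, norm_smul, Real.norm_eq_abs, abs_of_pos (by positivity), ← dist_eq_norm, ← hρ]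
    field_simp
  have h1 : r / ρ ≤ 1 := (div_le_one hρ0).2 hρr.le
  have h2 := convex_comb_le P.adm P.mem₀ hx.1 (sub_nonneg.2 h1) (by positivity : (0:ℝ) ≤ r / ρ)
    (by ring)
  rw [P.val₀, mul_zero, zero_add] at h2
  have h3 : m ≤ r / ρ * h :=
    ((isMinOn_iff.1 hmin y hys).trans h2).trans (mul_le_mul_of_nonneg_left hx.2 (by positivity))
  rw [div_mul_eq_mul_div, le_div_iff₀ hρ0] at h3
  rw [le_div_iff₀ hm0]
  linarith

lemma isCompact_csec (h : ℝ) : IsCompact (P.csec h) := by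
  obtain ⟨R, hR⟩ := P.csec_bounded h
  have hK : IsCompact ((closedBall P.p₀ R ×ˢ Icc 0 h) ∩
      {p : V 3 × ℝ | p.1 ∈ P.Ω ∧ p.2 = P.u p.1}) :=
    ((isCompact_closedBall _ _).prod isCompact_Icc).inter_right P.closed_graph
  have e : P.csec h = Prod.fst '' ((closedBall P.p₀ R ×ˢ Icc 0 h) ∩
      {p : V 3 × ℝ | p.1 ∈ P.Ω ∧ p.2 = P.u p.1}) := by
    ext x
    constructor
    · exact fun hx => ⟨(x, P.u x), ⟨⟨hR hx, P.nonneg hx.1, hx.2⟩, hx.1, rfl⟩, rfl⟩
    · rintro ⟨⟨x, t⟩, ⟨⟨-, -, ht⟩, hx, he⟩, rfl⟩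
      simp only at he ht
      exact ⟨hx, he ▸ ht⟩
  rw [e]
  exact hK.image continuous_fst

lemma sec_subset_csec (h : ℝ) : P.sec h ⊆ P.csec h := fun _ hx => ⟨hx.1, hx.2.le⟩

lemma csec_subset (h : ℝ) : P.csec h ⊆ P.Ω := fun _ hx => hx.1

lemma sec_subset (h : ℝ) : P.sec h ⊆ P.Ω := fun _ hx => hx.1

lemma isOpen_sec (h : ℝ) : IsOpen (P.sec h) :=
  P.smooth.continuousOn.isOpen_inter_preimage P.isOpen isOpen_Iio

lemma measurableSet_sec (h : ℝ) : MeasurableSet (P.sec h) := (P.isOpen_sec h).measurableSet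

lemma sec_mono {h h' : ℝ} (hh : h ≤ h') : P.sec h ⊆ P.sec h' :=
  fun _ hx => ⟨hx.1, lt_of_lt_of_le hx.2 hh⟩

lemma mem_sec₀ {h : ℝ} (hh : 0 < h) : P.p₀ ∈ P.sec h := ⟨P.mem₀, by rw [P.val₀]; exact hh⟩

lemma volume_sec_lt_top (h : ℝ) : volume (P.sec h) < ⊤ :=
  lt_of_le_of_lt (measure_mono (P.sec_subset_csec h)) (P.isCompact_csec h).measure_lt_top

lemma volume_sec_pos {h : ℝ} (hh : 0 < h) : 0 < (volume (P.sec h)).toReal :=
  ENNReal.toReal_pos ((P.isOpen_sec h).measure_pos volume ⟨_, P.mem_sec₀ hh⟩).ne'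
    (P.volume_sec_lt_top h).ne

lemma volume_sec_mono {h h' : ℝ} (hh : h ≤ h') :
    (volume (P.sec h)).toReal ≤ (volume (P.sec h')).toReal :=
  ENNReal.toReal_mono (P.volume_sec_lt_top h').ne (measure_mono (P.sec_mono hh))

lemma convex_sec (h : ℝ) : Convex ℝ (P.sec h) := by
  intro x hx y hy a b ha hb hab
  refine ⟨P.convex hx.1 hy.1 ha hb hab, (convex_comb_le P.adm hx.1 hy.1 ha hb hab).trans_lt ?_⟩
  rcases lt_or_eq_of_le ha with h' | h'
  · have h1 := mul_lt_mul_of_pos_left hx.2 h'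
    have h2 := mul_le_mul_of_nonneg_left hy.2.le hb
    have : a * h + b * h = h := by rw [← add_mul, hab, one_mul]
    linarith
  · have hb1 : b = 1 := by linarith
    subst hb1
    rw [← h']
    simpa using hy.2

lemma cut_nonneg {h : ℝ} {x : V 3} (hx : x ∈ P.sec h) : 0 ≤ P.cut h x := sub_nonneg.2 hx.2.le

lemma cut_le {h : ℝ} {x : V 3} (hx : x ∈ P.sec h) : P.cut h x ≤ h :=
  sub_le_self _ (P.nonneg hx.1)

lemma continuousOn_cut (h : ℝ) : ContinuousOn (P.cut h) P.Ω :=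
  continuousOn_const.sub P.smooth.continuousOn

lemma contDiffOn_dt : ContDiffOn ℝ (↑(⊤ : ℕ∞)) (dt P.u) P.Ω :=
  contDiffOn_det fun i j => contDiffOn_hessian P.isOpen P.smooth i j

lemma dt_pos {x : V 3} (hx : x ∈ P.Ω) : 0 < dt P.u x := (P.posDef hx).det_pos

lemma contDiffOn_lg : ContDiffOn ℝ (↑(⊤ : ℕ∞)) (lg P.u) P.Ω :=
  ((P.contDiffOn_dt.log fun _ hx => (P.dt_pos hx).ne').neg).div_const _

lemma contDiffOn_inv (i j : Fin 3) :
    ContDiffOn ℝ (↑(⊤ : ℕ∞)) (fun x => (hessian P.u x)⁻¹ i j) P.Ω := by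
  refine ((contDiffOn_adj P.isOpen P.smooth i j).div P.contDiffOn_dt
    fun x hx => (P.dt_pos hx).ne').congr fun x hx => ?_
  rw [Matrix.inv_def, Ring.inverse_eq_inv']
  simp [dt, div_eq_inv_mul]

lemma continuousOn_qX : ContinuousOn (qX P.u) P.Ω := by
  unfold qX gdot
  exact continuousOn_finsetSum _ fun i _ => continuousOn_finsetSum _ fun j _ =>
    (((P.contDiffOn_inv i j).mul (contDiffOn_pd P.isOpen P.contDiffOn_lg i)).mul
      (contDiffOn_pd P.isOpen P.contDiffOn_lg j)).continuousOn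

lemma qX_eq (x : V 3) : qX P.u x =
    (fun i => pd (lg P.u) i x) ⬝ᵥ ((hessian P.u x)⁻¹ *ᵥ fun i => pd (lg P.u) i x) := by
  simp only [qX, gdot, dotProduct, mulVec, Finset.mul_sum]
  exact Finset.sum_congr rfl fun i _ => Finset.sum_congr rfl fun j _ => by ring

lemma qX_nonneg {x : V 3} (hx : x ∈ P.Ω) : 0 ≤ qX P.u x := by
  rw [P.qX_eq]
  simpa using (P.posDef hx).inv.posSemidef.dotProduct_mulVec_nonneg fun i => pd (lg P.u) i x

lemma fderiv_lg_eq_zero {x : V 3} (hx : x ∈ P.Ω) (h0 : qX P.u x = 0) :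
    fderiv ℝ (lg P.u) x = 0 := by
  have h1 : (fun i => pd (lg P.u) i x) = 0 := by
    by_contra hne
    have := (P.posDef hx).inv.dotProduct_mulVec_pos hne
    rw [P.qX_eq] at h0
    simp only [star_trivial] at this
    linarith
  refine ContinuousLinearMap.ext fun v => ?_
  rw [fderiv_apply_sum]
  simp [fun i => congrFun h1 i]

end Sol

end Vale.Agent.P252D
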